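import Vale.Agent.P235.K5.Glue

set_option linter.all false

/-!
# K5, row LAW: three-point symmetric laws are determined by their metric
-/

namespace Vale.Agent.P235.K5.H193

open Finset Function Vale.Agent.P235.H684 Vale.Agent.P235.K5

variable {n : ℕ}

/-- the complementary cut -/
def co (X : Fin n → Bool) : Fin n → Bool := fun v => !(X v)

theorem co_co (X : Fin n → Bool) : co (co X) = X := by
  funext v
  simp [co]

theorem dif_co (i j : Fin n) (X : Fin n → Bool) : dif i j (co X) = dif i j X := by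
  unfold dif co
  cases X i <;> cases X j <;> simp

theorem sum_co (f : (Fin n → Bool) → ℝ) : ∑ X, f (co X) = ∑ X, f X :=
  Fintype.sum_bijective co (Function.Involutive.bijective co_co) _ _ fun X => rfl

/-- a symmetrised function of three coordinates is a combination of the three separations -/
theorem three_pt (H : Bool → Bool → Bool → ℝ) :
    ∃ A B C E : ℝ, ∀ x y z : Bool,
      (H x y z + H (!x) (!y) (!z)) / 2 =
        A + B * (if x = y then 0 else 1) + C * (if x = z then 0 else 1)
          + E * (if y = z then 0 else 1) := by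
  refine ⟨(H true true true + H false false false) / 2,
    ((H false true true + H true false false) / 2 + (H true false true + H false true false) / 2
      - (H true true false + H false false true) / 2
      - (H true true true + H false false false) / 2) / 2,
    ((H false true true + H true false false) / 2 + (H true true false + H false false true) / 2
      - (H true false true + H false true false) / 2
      - (H true true true + H false false false) / 2) / 2,
    ((H true false true + H false true false) / 2 + (H true true false + H false false true) / 2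
      - (H false true true + H true false false) / 2
      - (H true true true + H false false false) / 2) / 2, ?_⟩
  intro x y z
  cases x <;> cases y <;> cases z <;> simp <;> ring

/-- the cut with prescribed values at three points -/
def patt (a b : Fin n) (x y z : Bool) : Fin n → Bool :=
  fun v => if v = a then x else if v = b then y else z

theorem patt_eq {S : Finset (Fin n)} {a b c : Fin n} (hS : ∀ v ∈ S, v = a ∨ v = b ∨ v = c)
    (X : Fin n → Bool) : ∀ v ∈ (S : Set (Fin n)), patt a b (X a) (X b) (X c) v = X v := by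
  intro v hv
  have h0 := hS v hv
  unfold patt
  split_ifs with h1 h2
  · rw [h1]
  · rw [h2]
  · rcases h0 with h | h | h
    · exact absurd h h1
    · exact absurd h h2
    · rw [h]

theorem coeffs {S : Finset (Fin n)} {a b c : Fin n} (hS : ∀ v ∈ S, v = a ∨ v = b ∨ v = c)
    {h : (Fin n → Bool) → ℝ} (hh : DepOn (S : Set (Fin n)) h) :
    ∃ A B C E : ℝ, ∀ X, (h X + h (co X)) / 2
      = A + B * dif a b X + C * dif a c X + E * dif b c X := by
  obtain ⟨A, B, C, E, H⟩ := three_pt fun x y z => h (patt a b x y z)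
  refine ⟨A, B, C, E, fun X => ?_⟩
  have e1 : h X = h (patt a b (X a) (X b) (X c)) :=
    hh _ _ fun v hv => (patt_eq hS X v hv).symm
  have e2 : h (co X) = h (patt a b (!(X a)) (!(X b)) (!(X c))) :=
    hh _ _ fun v hv => (patt_eq hS (co X) v hv).symm
  rw [e1, e2]
  exact H (X a) (X b) (X c)

theorem ex_three {μ : (Fin n → Bool) → ℝ} (hs : ∀ X, μ (co X) = μ X) (hμ : ∑ X, μ X = 1)
    {a b c : Fin n} {h : (Fin n → Bool) → ℝ} {A B C E : ℝ}
    (hh : ∀ X, (h X + h (co X)) / 2 = A + B * dif a b X + C * dif a c X + E * dif b c X) :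
    Ex μ h = A + B * Ex μ (dif a b) + C * Ex μ (dif a c) + E * Ex μ (dif b c) := by
  have h1 : ∑ X, μ X * h (co X) = ∑ X, μ X * h X := by
    rw [← sum_co fun X => μ X * h X]
    exact Finset.sum_congr rfl fun X _ => by rw [hs]
  have h2 : ∑ X, μ X * ((h X + h (co X)) / 2) = Ex μ h := by
    have h3 : ∑ X, μ X * ((h X + h (co X)) / 2)
        = (∑ X, μ X * h X + ∑ X, μ X * h (co X)) / 2 := by
      rw [← Finset.sum_add_distrib, Finset.sum_div]
      exact Finset.sum_congr rfl fun X _ => by ring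
    rw [h3, h1]
    unfold Ex
    ring
  rw [← h2]
  calc ∑ X, μ X * ((h X + h (co X)) / 2)
      = ∑ X, (A * μ X + B * (μ X * dif a b X) + C * (μ X * dif a c X)
          + E * (μ X * dif b c X)) :=
        Finset.sum_congr rfl fun X _ => by rw [hh X]; ring
    _ = A * ∑ X, μ X + B * ∑ X, μ X * dif a b X + C * ∑ X, μ X * dif a c X
          + E * ∑ X, μ X * dif b c X := by
        rw [Finset.sum_add_distrib, Finset.sum_add_distrib, Finset.sum_add_distrib,
          Finset.mul_sum, Finset.mul_sum, Finset.mul_sum, Finset.mul_sum]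
    _ = _ := by
        rw [hμ, mul_one]
        rfl

theorem exists_three {S : Finset (Fin n)} (hS : S.card ≤ 3) (v0 : Fin n)
    {R : Fin n → Fin n → Prop} (hR : ∀ a ∈ S, ∀ b ∈ S, R a b) (hr : ∀ a, R a a) :
    ∃ a b c, (∀ v ∈ S, v = a ∨ v = b ∨ v = c) ∧ R a b ∧ R a c ∧ R b c := by
  rcases S.eq_empty_or_nonempty with h | ⟨a, ha⟩
  · exact ⟨v0, v0, v0, by simp [h], hr _, hr _, hr _⟩
  · have h3 : S.card = 1 ∨ S.card = 2 ∨ S.card = 3 := by
      have := Finset.card_pos.2 ⟨a, ha⟩
      omega
    rcases h3 with h | h | h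
    · obtain ⟨x, rfl⟩ := Finset.card_eq_one.1 h
      exact ⟨x, x, x, by simp, hr _, hr _, hr _⟩
    · obtain ⟨x, y, hxy, rfl⟩ := Finset.card_eq_two.1 h
      refine ⟨x, y, y, ?_, hR _ (by simp) _ (by simp), hR _ (by simp) _ (by simp), hr _⟩
      intro v hv
      simp at hv
      tauto
    · obtain ⟨x, y, z, hxy, hxz, hyz, rfl⟩ := Finset.card_eq_three.1 h
      refine ⟨x, y, z, ?_, hR _ (by simp) _ (by simp), hR _ (by simp) _ (by simp),
        hR _ (by simp) _ (by simp)⟩
      intro v hv
      simp at hv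
      tauto

/-- symmetric laws with the same metric on at most three points have the same marginal there -/
theorem consistent {μ ν : (Fin n → Bool) → ℝ} (hμs : ∀ X, μ (co X) = μ X)
    (hμ : ∑ X, μ X = 1) (hνs : ∀ X, ν (co X) = ν X) (hν : ∑ X, ν X = 1)
    {S : Finset (Fin n)} (hS : S.card ≤ 3) (v0 : Fin n)
    (hD : ∀ a ∈ S, ∀ b ∈ S, Ex μ (dif a b) = Ex ν (dif a b))
    {h : (Fin n → Bool) → ℝ} (hh : DepOn (S : Set (Fin n)) h) : Ex μ h = Ex ν h := by
  obtain ⟨a, b, c, hs, h1, h2, h3⟩ := exists_three hS v0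
    (R := fun a b => Ex μ (dif a b) = Ex ν (dif a b)) hD
    (fun a => by simp [Ex, dif_self])
  obtain ⟨A, B, C, E, H⟩ := coeffs hs hh
  rw [ex_three hμs hμ H, ex_three hνs hν H, h1, h2, h3]

/-- the symmetric law of a weight of total mass `Λ` -/
noncomputable def sy (Λ : ℝ) (g : (Fin n → Bool) → ℝ) (X : Fin n → Bool) : ℝ :=
  (g X + g (co X)) / (2 * Λ)

theorem sy_co (Λ : ℝ) (g : (Fin n → Bool) → ℝ) (X : Fin n → Bool) :
    sy Λ g (co X) = sy Λ g X := by
  unfold sy
  rw [co_co, add_comm]

theorem sy_sum {Λ : ℝ} (hΛ : 0 < Λ) {g : (Fin n → Bool) → ℝ} (hg : ∑ X, g X = Λ) :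
    ∑ X, sy Λ g X = 1 := by
  unfold sy
  rw [← Finset.sum_div, Finset.sum_add_distrib, sum_co, hg]
  field_simp
  ring

theorem sy_dif {Λ : ℝ} (hΛ : 0 < Λ) (g : (Fin n → Bool) → ℝ) (p q : Fin n) :
    Λ * Ex (sy Λ g) (dif p q) = ∑ X, g X * dif p q X := by
  have h1 : ∑ X, g (co X) * dif p q X = ∑ X, g X * dif p q X := by
    rw [← sum_co fun X => g X * dif p q X]
    exact Finset.sum_congr rfl fun X _ => by rw [dif_co]
  have h2 : Ex (sy Λ g) (dif p q)
      = (∑ X, g X * dif p q X + ∑ X, g (co X) * dif p q X) / (2 * Λ) := by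
    unfold Ex sy
    rw [← Finset.sum_add_distrib, Finset.sum_div]
    exact Finset.sum_congr rfl fun X _ => by ring
  rw [h2, h1]
  field_simp
  ring

/-- fill up with a constant cut to total mass `Λ` -/
noncomputable def fill (Λ : ℝ) (c : (Fin n → Bool) → ℝ) (X : Fin n → Bool) : ℝ :=
  c X + (if X = fun _ => true then Λ - ∑ Y, c Y else 0)

theorem fill_nonneg {Λ : ℝ} {c : (Fin n → Bool) → ℝ} (hc : ∀ X, 0 ≤ c X)
    (hl : ∑ X, c X ≤ Λ) (X : Fin n → Bool) : 0 ≤ fill Λ c X := by
  unfold fill
  have := hc X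
  split_ifs <;> linarith

theorem fill_sum (Λ : ℝ) (c : (Fin n → Bool) → ℝ) : ∑ X, fill Λ c X = Λ := by
  unfold fill
  rw [Finset.sum_add_distrib, Finset.sum_ite_eq']
  simp

theorem fill_dif (Λ : ℝ) (c : (Fin n → Bool) → ℝ) (p q : Fin n) :
    ∑ X, fill Λ c X * dif p q X = Tor.cm c p q := by
  unfold Tor.cm
  refine Finset.sum_congr rfl fun X _ => ?_
  unfold fill
  split_ifs with h
  · subst h
    simp [dif]
  · ring

/-- **[LAW]** -/
theorem law : LawStmt := by
  intro n T Z c hc hagree
  have hM0 : ∀ t, 0 ≤ ∑ X, c t X := fun t => Finset.sum_nonneg fun X _ => hc t X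
  have hs0 : 0 ≤ ∑ t, ∑ X, c t X := Finset.sum_nonneg fun t _ => hM0 t
  obtain ⟨Λ, hΛ⟩ : ∃ Λ : ℝ, Λ = 1 + ∑ t, ∑ X, c t X := ⟨_, rfl⟩
  have hΛ0 : 0 < Λ := by linarith
  have hle : ∀ t, ∑ X, c t X ≤ Λ := fun t => by
    have h1 : ∑ X, c t X ≤ ∑ t, ∑ X, c t X :=
      Finset.single_le_sum (f := fun t => ∑ X, c t X) (fun i _ => hM0 i) (Finset.mem_univ t)
    linarith
  have hdif : ∀ t p q, Λ * Ex (sy Λ (fill Λ (c t))) (dif p q) = Tor.cm (c t) p q :=
    fun t p q => by rw [sy_dif hΛ0, fill_dif]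
  refine ⟨fun t => sy Λ (fill Λ (c t)), Λ, hΛ0, fun t => ⟨fun X => ?_, ?_⟩, ?_, hdif⟩
  · unfold sy
    exact div_nonneg (add_nonneg (fill_nonneg (hc t) (hle t) _) (fill_nonneg (hc t) (hle t) _))
      (by linarith)
  · exact sy_sum hΛ0 (fill_sum _ _)
  · intro t ht h hh
    obtain ⟨v0, -⟩ := Z.surj t
    refine consistent (sy_co _ _) (sy_sum hΛ0 (fill_sum _ _)) (sy_co _ _)
      (sy_sum hΛ0 (fill_sum _ _)) (Z.card t) v0 ?_ hh
    intro a ha b hb
    have h1 := hagree t ht a ha b hb
    rw [← hdif, ← hdif] at h1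
    exact mul_left_cancel₀ hΛ0.ne' h1

end Vale.Agent.P235.K5.H193
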