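import Vale.Agent.P235.K5.Wagner

set_option linter.all false

/-!
# K5, Wagner, row W2: `K_{3,3}` with one edge on each side
-/

namespace Vale.Agent.P235.K5.H193

open SimpleGraph Vale.Agent.P235.H134 Vale.Agent.P235.H56 Vale.Agent.P235.K5.W

theorem ad_symm {V : Type} {G : SimpleGraph V} {X Y : Set V} (h : Ad G X Y) : Ad G Y X := by
  obtain ⟨x, hx, y, hy, h⟩ := h
  exact ⟨y, hy, x, hx, h.symm⟩

theorem ad_mono {V : Type} {G : SimpleGraph V} {X Y X' Y' : Set V} (h : Ad G X Y)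
    (h1 : X ⊆ X') (h2 : Y ⊆ Y') : Ad G X' Y' := by
  obtain ⟨x, hx, y, hy, h⟩ := h
  exact ⟨x, h1 hx, y, h2 hy, h⟩

theorem cn_union {V : Type} {G : SimpleGraph V} {X Y : Set V} (hX : Cn G X) (hY : Cn G Y)
    (h : Ad G X Y) : Cn G (X ∪ Y) := by
  obtain ⟨x, hx, y, hy, h⟩ := h
  exact connected_induce_union hX.preconnected hY.preconnected hx hy h

/-- five pairwise adjacent disjoint connected sets -/
theorem minor_five {V : Type} {G : SimpleGraph V} {P Q R S T : Set V} (c1 : Cn G P)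
    (c2 : Cn G Q) (c3 : Cn G R) (c4 : Cn G S) (c5 : Cn G T)
    (d12 : Disjoint P Q) (d13 : Disjoint P R) (d14 : Disjoint P S) (d15 : Disjoint P T)
    (d23 : Disjoint Q R) (d24 : Disjoint Q S) (d25 : Disjoint Q T) (d34 : Disjoint R S)
    (d35 : Disjoint R T) (d45 : Disjoint S T)
    (a12 : Ad G P Q) (a13 : Ad G P R) (a14 : Ad G P S) (a15 : Ad G P T)
    (a23 : Ad G Q R) (a24 : Ad G Q S) (a25 : Ad G Q T) (a34 : Ad G R S)
    (a35 : Ad G R T) (a45 : Ad G S T) : IsMinor W.K5 G := by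
  refine ⟨![P, Q, R, S, T], ?_, ?_, ?_⟩
  · intro a
    fin_cases a
    exacts [c1, c2, c3, c4, c5]
  · intro a b hab
    fin_cases a <;> fin_cases b
    exacts [absurd rfl hab, d12, d13, d14, d15, d12.symm, absurd rfl hab, d23, d24, d25,
      d13.symm, d23.symm, absurd rfl hab, d34, d35, d14.symm, d24.symm, d34.symm,
      absurd rfl hab, d45, d15.symm, d25.symm, d35.symm, d45.symm, absurd rfl hab]
  · intro a b hab
    have hab : a ≠ b := hab
    fin_cases a <;> fin_cases b
    exacts [absurd rfl hab, a12, a13, a14, a15, ad_symm a12, absurd rfl hab, a23, a24, a25,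
      ad_symm a13, ad_symm a23, absurd rfl hab, a34, a35, ad_symm a14, ad_symm a24,
      ad_symm a34, absurd rfl hab, a45, ad_symm a15, ad_symm a25, ad_symm a35, ad_symm a45,
      absurd rfl hab]

theorem third (i k : Fin 3) : ∃ l : Fin 3, l ≠ i ∧ l ≠ k := by
  revert i k
  decide

/-- **[W2]** -/
theorem two : TwoStmt := by
  intro V _ G A B hM i k j l hik hAA hjl hBB
  obtain ⟨i', hi1, hi2⟩ := third i k
  obtain ⟨j', hj1, hj2⟩ := third j l
  have hc : Cn G (A i' ∪ B j') := cn_union (hM.connA i') (hM.connB j') (hM.adj i' j')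
  refine minor_five (hM.connA i) (hM.connA k) (hM.connB j) (hM.connB l) hc
    (hM.dA i k hik) (hM.dAB i j) (hM.dAB i l) ?_ (hM.dAB k j) (hM.dAB k l) ?_
    (hM.dB j l hjl) ?_ ?_ hAA (hM.adj i j) (hM.adj i l) ?_ (hM.adj k j) (hM.adj k l) ?_
    hBB ?_ ?_
  · exact Disjoint.union_right (hM.dA i i' (Ne.symm hi1)) (hM.dAB i j')
  · exact Disjoint.union_right (hM.dA k i' (Ne.symm hi2)) (hM.dAB k j')
  · exact Disjoint.union_right (hM.dAB i' j).symm (hM.dB j j' (Ne.symm hj1))
  · exact Disjoint.union_right (hM.dAB i' l).symm (hM.dB l j' (Ne.symm hj2))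
  · exact ad_mono (hM.adj i j') subset_rfl Set.subset_union_right
  · exact ad_mono (hM.adj k j') subset_rfl Set.subset_union_right
  · exact ad_mono (ad_symm (hM.adj i' j)) subset_rfl Set.subset_union_left
  · exact ad_mono (ad_symm (hM.adj i' l)) subset_rfl Set.subset_union_left

end Vale.Agent.P235.K5.H193
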